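import Mathlib

namespace Vale.Agent.Lib.P347

open MeasureTheory intervalIntegral

theorem exp_neg_upper {u : ℝ} (hu : 0 ≤ u) : Real.exp (-u) ≤ 1 - u + u ^ 2 / 2 := by
  have h1 := Real.quadratic_le_exp_of_nonneg hu
  have hpos : 0 < 1 + u + u ^ 2 / 2 := by positivity
  rw [Real.exp_neg]
  calc (Real.exp u)⁻¹ ≤ (1 + u + u ^ 2 / 2)⁻¹ := inv_anti₀ hpos h1
    _ ≤ 1 - u + u ^ 2 / 2 := by
      rw [inv_le_iff_one_le_mul₀ hpos]
      nlinarith [sq_nonneg (u ^ 2)]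

theorem exp_neg_lower {u : ℝ} (hu : 0 ≤ u) (hu1 : u ≤ 1) :
    1 - u + u ^ 2 / 2 - u ^ 3 / 6 + u ^ 4 / 24 - u ^ 5 / 100 ≤ Real.exp (-u) := by
  have h := Real.exp_bound (x := -u) (by rw [abs_neg, abs_of_nonneg hu]; exact hu1)
    (n := 5) (by norm_num)
  rw [abs_neg, abs_of_nonneg hu] at h
  have h2 := (abs_le.mp h).1
  simp [Finset.sum_range_succ, Nat.factorial] at h2
  norm_num at h2
  nlinarith [h2]

theorem int_lower :
    (83 / 100 : ℝ) * √Real.pi ≤ ∫ t in (-1 : ℝ)..1, Real.exp (-(1 : ℝ) * t ^ 2) := by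
  have hP : ∫ t in (-1:ℝ)..1,
      (1 - t ^ 2 + t ^ 4 / 2 - t ^ 6 / 6 + t ^ 8 / 24 - t ^ 10 / 100)
      = 2 * (1 - 1 / 3 + 1 / 10 - 1 / 42 + 1 / 216 - 1 / 1100) := by
    have h : ∀ x ∈ Set.uIcc (-1:ℝ) 1, HasDerivAt
        (fun t : ℝ => t - t ^ 3 / 3 + t ^ 5 / 10 - t ^ 7 / 42 + t ^ 9 / 216 - t ^ 11 / 1100)
        (1 - x ^ 2 + x ^ 4 / 2 - x ^ 6 / 6 + x ^ 8 / 24 - x ^ 10 / 100) x := by
      intro x _
      have := (((((hasDerivAt_id x).sub ((hasDerivAt_pow 3 x).div_const 3)).add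
        ((hasDerivAt_pow 5 x).div_const 10)).sub ((hasDerivAt_pow 7 x).div_const 42)).add
        ((hasDerivAt_pow 9 x).div_const 216)).sub ((hasDerivAt_pow 11 x).div_const 1100)
      exact this.congr_deriv (by norm_num; ring)
    rw [integral_eq_sub_of_hasDerivAt h (by apply Continuous.intervalIntegrable; fun_prop)]
    norm_num
  have hmono : ∫ t in (-1:ℝ)..1,
      (1 - t ^ 2 + t ^ 4 / 2 - t ^ 6 / 6 + t ^ 8 / 24 - t ^ 10 / 100)
      ≤ ∫ t in (-1 : ℝ)..1, Real.exp (-(1 : ℝ) * t ^ 2) := by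
    apply integral_mono_on (by norm_num)
    · apply Continuous.intervalIntegrable; fun_prop
    · apply Continuous.intervalIntegrable; fun_prop
    · intro t ht
      have hu : 0 ≤ t ^ 2 := sq_nonneg t
      have hu1 : t ^ 2 ≤ 1 := by
        have := abs_le.mpr ⟨ht.1, ht.2⟩
        nlinarith [abs_nonneg t, sq_abs t]
      have := exp_neg_lower hu hu1
      have e : -(1 : ℝ) * t ^ 2 = -(t ^ 2) := by ring
      rw [e]
      calc 1 - t ^ 2 + t ^ 4 / 2 - t ^ 6 / 6 + t ^ 8 / 24 - t ^ 10 / 100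
          = 1 - t ^ 2 + (t ^ 2) ^ 2 / 2 - (t ^ 2) ^ 3 / 6 + (t ^ 2) ^ 4 / 24 - (t ^ 2) ^ 5 / 100 := by
            ring
        _ ≤ Real.exp (-(t ^ 2)) := this
  have hpi : √Real.pi ≤ 178 / 100 := by
    rw [show (178 / 100 : ℝ) = √((178 / 100) ^ 2) by rw [Real.sqrt_sq (by norm_num)]]
    apply Real.sqrt_le_sqrt
    have := Real.pi_lt_d2
    norm_num
    linarith
  rw [hP] at hmono
  calc (83 / 100 : ℝ) * √Real.pi ≤ 83 / 100 * (178 / 100) := by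
        apply mul_le_mul_of_nonneg_left hpi (by norm_num)
    _ ≤ 2 * (1 - 1 / 3 + 1 / 10 - 1 / 42 + 1 / 216 - 1 / 1100) := by norm_num
    _ ≤ _ := hmono

theorem int_upper :
    ∫ t in (-1 : ℝ)..1, Real.exp (-(1 / 2 : ℝ) * t ^ 2) ≤ (69 / 100 : ℝ) * √(Real.pi / (1 / 2)) := by
  have hP : ∫ t in (-1:ℝ)..1, (1 - t ^ 2 / 2 + t ^ 4 / 8) = 103 / 60 := by
    have h : ∀ x ∈ Set.uIcc (-1:ℝ) 1, HasDerivAt
        (fun t : ℝ => t - t ^ 3 / 6 + t ^ 5 / 40)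
        (1 - x ^ 2 / 2 + x ^ 4 / 8) x := by
      intro x _
      have := ((hasDerivAt_id x).sub ((hasDerivAt_pow 3 x).div_const 6)).add
        ((hasDerivAt_pow 5 x).div_const 40)
      exact this.congr_deriv (by norm_num; ring)
    rw [integral_eq_sub_of_hasDerivAt h (by apply Continuous.intervalIntegrable; fun_prop)]
    norm_num
  have hmono : ∫ t in (-1 : ℝ)..1, Real.exp (-(1 / 2 : ℝ) * t ^ 2)
      ≤ ∫ t in (-1:ℝ)..1, (1 - t ^ 2 / 2 + t ^ 4 / 8) := by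
    apply integral_mono_on (by norm_num)
    · apply Continuous.intervalIntegrable; fun_prop
    · apply Continuous.intervalIntegrable; fun_prop
    · intro t ht
      have hu : 0 ≤ t ^ 2 / 2 := by positivity
      have := exp_neg_upper hu
      have e : -(1 / 2 : ℝ) * t ^ 2 = -(t ^ 2 / 2) := by ring
      rw [e]
      calc Real.exp (-(t ^ 2 / 2)) ≤ 1 - t ^ 2 / 2 + (t ^ 2 / 2) ^ 2 / 2 := this
        _ = 1 - t ^ 2 / 2 + t ^ 4 / 8 := by ring
  have hpi : (25 / 10 : ℝ) ≤ √(Real.pi / (1 / 2)) := by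
    rw [show (25 / 10 : ℝ) = √((25 / 10) ^ 2) by rw [Real.sqrt_sq (by norm_num)]]
    apply Real.sqrt_le_sqrt
    have := Real.pi_gt_d2
    norm_num
    linarith
  rw [hP] at hmono
  calc _ ≤ (103 / 60 : ℝ) := hmono
    _ ≤ 69 / 100 * (25 / 10) := by norm_num
    _ ≤ 69 / 100 * √(Real.pi / (1 / 2)) := by
        apply mul_le_mul_of_nonneg_left hpi (by norm_num)

end Vale.Agent.Lib.P347
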