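import Vale.Agent.Lib.P347.GaussInt
import Vale.Agent.Lib.P347.Numeric

namespace Vale.Agent.Lib.P347

open MeasureTheory RealInnerProductSpace InnerProductSpace intervalIntegral

variable {d : ℕ}

theorem oneInt_one (a : ℝ) : oneInt (fun _ => 1) a = √(Real.pi / a) := by
  simp only [oneInt, mul_one]
  exact integral_gaussian a

theorem oneInt_box (a : ℝ) : oneInt boxJ a = ∫ t in (-1 : ℝ)..1, Real.exp (-a * t ^ 2) := by
  have e : (fun t => Real.exp (-a * t ^ 2) * boxJ t)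
      = (Set.Icc (-1 : ℝ) 1).indicator (fun t => Real.exp (-a * t ^ 2)) := by
    ext t
    by_cases h : |t| ≤ 1
    · have : t ∈ Set.Icc (-1 : ℝ) 1 := abs_le.mp h
      simp [boxJ, h, Set.indicator, this]
    · have : t ∉ Set.Icc (-1 : ℝ) 1 := fun hh => h (abs_le.mpr hh)
      simp [boxJ, h, Set.indicator, this]
  rw [oneInt, e, MeasureTheory.integral_indicator measurableSet_Icc, integral_Icc_eq_integral_Ioc,
    ← intervalIntegral.integral_of_le (by norm_num)]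

theorem gibbs_plus (b : OrthonormalBasis (Fin d) ℝ (E d)) (i₀ i₁ : Fin d) (h : i₀ ≠ i₁) :
    (83 / 100 : ℝ) ^ 2 ≤ (gibbs (quadV (1 / 4) (b i₀) (b i₁))).real (boxSet (b i₀) (b i₁)) := by
  rw [gibbs_box (1 / 4) (by norm_num) b i₀ i₁ h, oneInt_one, oneInt_box]
  have e : (3 / 4 + 1 / 4 : ℝ) = 1 := by norm_num
  rw [e, div_one]
  have hpos : 0 < √Real.pi := Real.sqrt_pos.mpr Real.pi_pos
  have := int_lower
  have h2 : (83 / 100 : ℝ) ≤ (∫ t in (-1 : ℝ)..1, Real.exp (-(1 : ℝ) * t ^ 2)) / √Real.pi := by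
    rw [le_div_iff₀ hpos]; exact this
  exact pow_le_pow_left₀ (by norm_num) h2 2

theorem gibbs_minus (b : OrthonormalBasis (Fin d) ℝ (E d)) (i₀ i₁ : Fin d) (h : i₀ ≠ i₁) :
    (gibbs (quadV (-(1 / 4)) (b i₀) (b i₁))).real (boxSet (b i₀) (b i₁)) ≤ (69 / 100 : ℝ) ^ 2 := by
  rw [gibbs_box (-(1 / 4)) (by rw [abs_neg]; norm_num) b i₀ i₁ h, oneInt_one, oneInt_box]
  have e : (3 / 4 + -(1 / 4) : ℝ) = 1 / 2 := by norm_num
  rw [e]
  have hpos : 0 < √(Real.pi / (1 / 2)) := Real.sqrt_pos.mpr (by positivity)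
  have := int_upper
  have h2 : (∫ t in (-1 : ℝ)..1, Real.exp (-(1 / 2 : ℝ) * t ^ 2)) / √(Real.pi / (1 / 2))
      ≤ (69 / 100 : ℝ) := by
    rw [div_le_iff₀ hpos]; exact this
  have h0 : 0 ≤ (∫ t in (-1 : ℝ)..1, Real.exp (-(1 / 2 : ℝ) * t ^ 2)) / √(Real.pi / (1 / 2)) := by
    apply div_nonneg _ hpos.le
    apply intervalIntegral.integral_nonneg (by norm_num)
    intro t _; exact (Real.exp_pos _).le
  exact pow_le_pow_left₀ h0 h2 2

end Vale.Agent.Lib.P347
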