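import Mathlib

namespace Vale.Agent.Lib.P347

open MeasureTheory

/-- The class of potentials: `V` is `C^2`, `V 0 = 0`, `∇ V 0 = 0` and
`‖v‖^2 ≤ D^2 V(x)(v, v) ≤ 2 ‖v‖^2` for all `x` and `v`. -/
def Admissible {d : ℕ} (V : EuclideanSpace ℝ (Fin d) → ℝ) : Prop :=
  ContDiff ℝ 2 V ∧ V 0 = 0 ∧ gradient V 0 = 0 ∧
    ∀ x v : EuclideanSpace ℝ (Fin d), ‖v‖ ^ 2 ≤ iteratedFDeriv ℝ 2 V x (fun _ => v) ∧
      iteratedFDeriv ℝ 2 V x (fun _ => v) ≤ 2 * ‖v‖ ^ 2

/-- The Gibbs law with density proportional to `exp (-V)` with respect to Lebesgue measure. -/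
noncomputable def gibbs {d : ℕ} (V : EuclideanSpace ℝ (Fin d) → ℝ) : Measure (EuclideanSpace ℝ (Fin d)) :=
  (ENNReal.ofReal (∫ x, Real.exp (-V x)))⁻¹ •
    (volume.withDensity fun x => ENNReal.ofReal (Real.exp (-V x)))

/-- A randomized adaptive algorithm making `q` first-order queries in dimension `d`:
a probability space `(Ω, P)` of random seeds, for each `k` a measurable rule `next k` giving the
`(k+1)`-st query point from the seed and the `k` previous oracle answers, and a measurable
output rule `out` giving the output point from the seed and the `q` oracle answers. -/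
structure Algorithm (d q : ℕ) where
  Ω : Type
  mΩ : MeasurableSpace Ω
  P : Measure Ω
  prob : IsProbabilityMeasure P
  next : (k : ℕ) → Ω → (Fin k → ℝ × EuclideanSpace ℝ (Fin d)) → EuclideanSpace ℝ (Fin d)
  out : Ω → (Fin q → ℝ × EuclideanSpace ℝ (Fin d)) → EuclideanSpace ℝ (Fin d)
  next_meas : ∀ k, Measurable fun p : Ω × (Fin k → ℝ × EuclideanSpace ℝ (Fin d)) => next k p.1 p.2
  out_meas : Measurable fun p : Ω × (Fin q → ℝ × EuclideanSpace ℝ (Fin d)) => out p.1 p.2

attribute [instance] Algorithm.mΩ Algorithm.prob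

/-- The first `k` oracle answers `(V x, ∇ V x)` received by the algorithm on the potential `V`
with seed `ω`. -/
noncomputable def Algorithm.hist {d q : ℕ} (A : Algorithm d q) (V : EuclideanSpace ℝ (Fin d) → ℝ) (ω : A.Ω) :
    (k : ℕ) → Fin k → ℝ × EuclideanSpace ℝ (Fin d)
  | 0 => fun i => i.elim0
  | k + 1 => Fin.snoc (α := fun _ => ℝ × EuclideanSpace ℝ (Fin d)) (A.hist V ω k)
      (V (A.next k ω (A.hist V ω k)), gradient V (A.next k ω (A.hist V ω k)))

/-- The law of the output of the algorithm on the potential `V`. -/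
noncomputable def Algorithm.law {d q : ℕ} (A : Algorithm d q) (V : EuclideanSpace ℝ (Fin d) → ℝ) : Measure (EuclideanSpace ℝ (Fin d)) :=
  A.P.map fun ω => A.out ω (A.hist V ω q)

end Vale.Agent.Lib.P347
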