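import Vale.Agent.Lib.P347.Quadratic

namespace Vale.Agent.Lib.P347

open MeasureTheory RealInnerProductSpace InnerProductSpace

variable {d : ℕ}

theorem gibbs_real {V : E d → ℝ} (hint : Integrable fun x => Real.exp (-V x))
    {B : Set (E d)} (hB : MeasurableSet B) :
    (gibbs V).real B = (∫ x in B, Real.exp (-V x)) / ∫ x, Real.exp (-V x) := by
  unfold gibbs
  rw [Measure.real, Measure.smul_apply, withDensity_apply _ hB,
    ← ofReal_integral_eq_lintegral_ofReal hint.integrableOn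
      (Filter.Eventually.of_forall fun x => (Real.exp_pos _).le)]
  rw [smul_eq_mul, ENNReal.toReal_mul, ENNReal.toReal_inv,
    ENNReal.toReal_ofReal (integral_nonneg fun x => (Real.exp_pos _).le),
    ENNReal.toReal_ofReal (integral_nonneg fun x => (Real.exp_pos _).le)]
  ring

theorem integral_via_basis (b : OrthonormalBasis (Fin d) ℝ (E d)) (F : E d → ℝ) :
    ∫ x, F x = ∫ y : Fin d → ℝ, F (b.repr.symm (WithLp.toLp 2 y)) := by
  have h1 : ∫ z : EuclideanSpace ℝ (Fin d), F (b.repr.symm z) = ∫ x, F x :=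
    b.measurePreserving_repr_symm.integral_comp
      b.repr.symm.toHomeomorph.measurableEmbedding F
  have h2 : ∫ y : Fin d → ℝ, F (b.repr.symm (WithLp.toLp 2 y))
      = ∫ z : EuclideanSpace ℝ (Fin d), F (b.repr.symm z) :=
    (PiLp.volume_preserving_toLp (Fin d)).integral_comp
      (MeasurableEquiv.toLp 2 (Fin d → ℝ)).measurableEmbedding (fun z => F (b.repr.symm z))
  rw [← h1, ← h2]

/-- coefficient of the `i`-th coordinate. -/
noncomputable def coef (c : ℝ) (i₀ i₁ i : Fin d) : ℝ :=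
  3 / 4 + (if i = i₀ then c else 0) + (if i = i₁ then c else 0)

/-- the `i`-th one-dimensional factor. -/
noncomputable def fac (J : ℝ → ℝ) (c : ℝ) (i₀ i₁ i : Fin d) (t : ℝ) : ℝ :=
  Real.exp (-(coef c i₀ i₁ i) * t ^ 2) * (if i = i₀ then J t else 1) * (if i = i₁ then J t else 1)

theorem quad_prod (b : OrthonormalBasis (Fin d) ℝ (E d)) (i₀ i₁ : Fin d) (c : ℝ) (J : ℝ → ℝ) :
    ∫ x, Real.exp (-(quadV c (b i₀) (b i₁) x)) * J ⟪b i₀, x⟫_ℝ * J ⟪b i₁, x⟫_ℝ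
      = ∏ i, ∫ t, fac J c i₀ i₁ i t := by
  rw [integral_via_basis b, ← integral_fintype_prod_volume_eq_prod]
  congr 1
  ext y
  have hn : ‖b.repr.symm (WithLp.toLp 2 y)‖ ^ 2 = ∑ i, y i ^ 2 := by
    rw [LinearIsometryEquiv.norm_map, EuclideanSpace.real_norm_sq_eq]
  have hi : ∀ i, ⟪b i, b.repr.symm (WithLp.toLp 2 y)⟫_ℝ = y i := by
    intro i
    rw [← b.repr_apply_apply]
    simp
  simp only [quadV, hn, hi, fac, coef]
  rw [Finset.prod_mul_distrib, Finset.prod_mul_distrib, ← Real.exp_sum, Finset.prod_ite_eq',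
    Finset.prod_ite_eq']
  simp only [Finset.mem_univ, if_true]
  congr 3
  simp only [neg_mul, Finset.sum_neg_distrib, add_mul, Finset.sum_add_distrib, ite_mul, zero_mul,
    Finset.sum_ite_eq', Finset.mem_univ, if_true, ← Finset.mul_sum]
  ring

/-- the indicator of `[-1, 1]`. -/
noncomputable def boxJ (t : ℝ) : ℝ := if |t| ≤ 1 then 1 else 0

/-- the box event. -/
def boxSet (w₁ w₂ : E d) : Set (E d) := {x | |⟪w₁, x⟫_ℝ| ≤ 1 ∧ |⟪w₂, x⟫_ℝ| ≤ 1}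

theorem boxSet_measurable (w₁ w₂ : E d) : MeasurableSet (boxSet w₁ w₂) := by
  have c1 : Continuous fun x : E d => |⟪w₁, x⟫_ℝ| := (innerSL ℝ w₁).continuous.abs
  have c2 : Continuous fun x : E d => |⟪w₂, x⟫_ℝ| := (innerSL ℝ w₂).continuous.abs
  exact ((isClosed_le c1 continuous_const).inter (isClosed_le c2 continuous_const)).measurableSet

theorem quadV_continuous (c : ℝ) (w₁ w₂ : E d) : Continuous (quadV c w₁ w₂) := by
  have c1 : Continuous fun x : E d => ⟪w₁, x⟫_ℝ := (innerSL ℝ w₁).continuous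
  have c2 : Continuous fun x : E d => ⟪w₂, x⟫_ℝ := (innerSL ℝ w₂).continuous
  unfold quadV
  fun_prop

theorem integrable_exp_neg_half_norm_sq :
    Integrable fun x : E d => Real.exp (-(1 / 2 : ℝ) * ‖x‖ ^ 2) := by
  have h := GaussianFourier.integrable_cexp_neg_mul_sq_norm_add (V := E d)
    (b := (1 / 2 : ℂ)) (by norm_num) 0 0
  have h2 := h.norm
  refine h2.congr (Filter.Eventually.of_forall fun x => ?_)
  simp only [Complex.norm_exp]
  congr 1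
  simp
  norm_cast

theorem quadV_integrable (c : ℝ) (hc : |c| ≤ 1 / 4) (w₁ w₂ : E d)
    (h₁ : ‖w₁‖ = 1) (h₂ : ‖w₂‖ = 1) (h₁₂ : ⟪w₁, w₂⟫_ℝ = 0) :
    Integrable fun x => Real.exp (-(quadV c w₁ w₂ x)) := by
  refine integrable_exp_neg_half_norm_sq.mono'
    ((Real.continuous_exp.comp (quadV_continuous c w₁ w₂).neg).aestronglyMeasurable)
    (Filter.Eventually.of_forall fun x => ?_)
  rw [Real.norm_eq_abs, abs_of_pos (Real.exp_pos _)]
  apply Real.exp_le_exp.mpr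
  have hb := bessel_two w₁ w₂ x h₁ h₂ h₁₂
  have hn : 0 ≤ ⟪w₁, x⟫_ℝ ^ 2 + ⟪w₂, x⟫_ℝ ^ 2 := by positivity
  have hc' := abs_le.mp hc
  unfold quadV
  nlinarith [hc'.1, hc'.2]

theorem setIntegral_box (c : ℝ) (w₁ w₂ : E d) :
    ∫ x in boxSet w₁ w₂, Real.exp (-(quadV c w₁ w₂ x))
      = ∫ x, Real.exp (-(quadV c w₁ w₂ x)) * boxJ ⟪w₁, x⟫_ℝ * boxJ ⟪w₂, x⟫_ℝ := by
  rw [← integral_indicator (boxSet_measurable w₁ w₂)]
  congr 1
  ext x
  by_cases h1 : |⟪w₁, x⟫_ℝ| ≤ 1 <;> by_cases h2 : |⟪w₂, x⟫_ℝ| ≤ 1 <;>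
    simp [Set.indicator, boxSet, boxJ, h1, h2]

theorem integral_one (c : ℝ) (w₁ w₂ : E d) :
    ∫ x, Real.exp (-(quadV c w₁ w₂ x))
      = ∫ x, Real.exp (-(quadV c w₁ w₂ x)) * (fun _ : ℝ => (1 : ℝ)) ⟪w₁, x⟫_ℝ
          * (fun _ : ℝ => (1 : ℝ)) ⟪w₂, x⟫_ℝ := by
  simp

/-- the one-dimensional weighted Gaussian integral. -/
noncomputable def oneInt (J : ℝ → ℝ) (a : ℝ) : ℝ := ∫ t, Real.exp (-a * t ^ 2) * J t

theorem fac_other (J : ℝ → ℝ) (c : ℝ) (i₀ i₁ i : Fin d) (h0 : i ≠ i₀) (h1 : i ≠ i₁) :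
    fac J c i₀ i₁ i = fun t => Real.exp (-(3 / 4 : ℝ) * t ^ 2) := by
  ext t
  simp [fac, coef, h0, h1]

theorem fac_i0 (J : ℝ → ℝ) (c : ℝ) (i₀ i₁ : Fin d) (h : i₀ ≠ i₁) :
    fac J c i₀ i₁ i₀ = fun t => Real.exp (-(3 / 4 + c) * t ^ 2) * J t := by
  ext t
  simp [fac, coef, h]

theorem fac_i1 (J : ℝ → ℝ) (c : ℝ) (i₀ i₁ : Fin d) (h : i₀ ≠ i₁) :
    fac J c i₀ i₁ i₁ = fun t => Real.exp (-(3 / 4 + c) * t ^ 2) * J t := by
  ext t
  simp [fac, coef, h.symm]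

theorem box_ratio (J J' : ℝ → ℝ) (c : ℝ) (i₀ i₁ : Fin d) (h : i₀ ≠ i₁) :
    (∏ i, ∫ t, fac J c i₀ i₁ i t) / (∏ i, ∫ t, fac J' c i₀ i₁ i t)
      = (oneInt J (3 / 4 + c) / oneInt J' (3 / 4 + c)) ^ 2 := by
  rw [← Finset.prod_div_distrib]
  rw [Finset.prod_eq_mul i₀ i₁ h]
  · rw [fac_i0 J c i₀ i₁ h, fac_i0 J' c i₀ i₁ h, fac_i1 J c i₀ i₁ h, fac_i1 J' c i₀ i₁ h]
    simp only [oneInt]
    ring
  · intro i _ hi
    rw [fac_other J c i₀ i₁ i hi.1 hi.2, fac_other J' c i₀ i₁ i hi.1 hi.2]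
    apply div_self
    rw [integral_gaussian]
    positivity
  · intro hh; exact absurd (Finset.mem_univ _) hh
  · intro hh; exact absurd (Finset.mem_univ _) hh

theorem gibbs_box (c : ℝ) (hc : |c| ≤ 1 / 4) (b : OrthonormalBasis (Fin d) ℝ (E d))
    (i₀ i₁ : Fin d) (h : i₀ ≠ i₁) :
    (gibbs (quadV c (b i₀) (b i₁))).real (boxSet (b i₀) (b i₁))
      = (oneInt boxJ (3 / 4 + c) / oneInt (fun _ => 1) (3 / 4 + c)) ^ 2 := by
  have hn0 : ‖b i₀‖ = 1 := b.orthonormal.1 i₀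
  have hn1 : ‖b i₁‖ = 1 := b.orthonormal.1 i₁
  have ho : ⟪b i₀, b i₁⟫_ℝ = 0 := b.orthonormal.2 h
  rw [gibbs_real (quadV_integrable c hc _ _ hn0 hn1 ho) (boxSet_measurable _ _),
    setIntegral_box, integral_one, quad_prod b i₀ i₁ c boxJ, quad_prod b i₀ i₁ c (fun _ => 1),
    box_ratio _ _ c i₀ i₁ h]

end Vale.Agent.Lib.P347
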