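import Vale.Agent.Lib.P347.BoxBounds

namespace Vale.Agent.Lib.P347

open MeasureTheory RealInnerProductSpace InnerProductSpace

variable {d q : ℕ}

theorem quadV_eq_of_orth (c : ℝ) (w₁ w₂ x : E d) (h1 : ⟪w₁, x⟫_ℝ = 0) (h2 : ⟪w₂, x⟫_ℝ = 0) :
    quadV c w₁ w₂ x = quadV 0 0 0 x := by
  simp [quadV, h1, h2]

theorem quadG_eq_of_orth (c : ℝ) (w₁ w₂ x : E d) (h1 : ⟪w₁, x⟫_ℝ = 0) (h2 : ⟪w₂, x⟫_ℝ = 0) :
    quadG c w₁ w₂ x = quadG 0 0 0 x := by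
  simp [quadG, h1, h2]

theorem hist_eq (A : Algorithm d q) (c : ℝ) (w₁ w₂ : E d) (ω : A.Ω)
    (hq : ∀ k, k < q → ⟪w₁, A.next k ω (A.hist (quadV 0 0 0) ω k)⟫_ℝ = 0 ∧
      ⟪w₂, A.next k ω (A.hist (quadV 0 0 0) ω k)⟫_ℝ = 0) :
    ∀ k, k ≤ q → A.hist (quadV c w₁ w₂) ω k = A.hist (quadV 0 0 0) ω k := by
  intro k
  induction k with
  | zero => intro _; rfl
  | succ k ih =>
    intro hk
    have ih' := ih (Nat.le_of_succ_le hk)
    obtain ⟨h1, h2⟩ := hq k hk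
    simp only [Algorithm.hist]
    rw [ih', quadV_gradient, quadV_gradient, quadV_eq_of_orth c w₁ w₂ _ h1 h2,
      quadG_eq_of_orth c w₁ w₂ _ h1 h2]

theorem law_eq (A : Algorithm d q) (c : ℝ) (w₁ w₂ : E d)
    (hq : ∀ ω k, k < q → ⟪w₁, A.next k ω (A.hist (quadV 0 0 0) ω k)⟫_ℝ = 0 ∧
      ⟪w₂, A.next k ω (A.hist (quadV 0 0 0) ω k)⟫_ℝ = 0) :
    A.law (quadV c w₁ w₂) = A.law (quadV 0 0 0) := by
  unfold Algorithm.law
  congr 1
  funext ω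
  rw [hist_eq A c w₁ w₂ ω (hq ω) q le_rfl]

theorem core (A : Algorithm d q) (b : OrthonormalBasis (Fin d) ℝ (E d)) (i₀ i₁ : Fin d)
    (h : i₀ ≠ i₁)
    (hq : ∀ ω k, k < q → ⟪b i₀, A.next k ω (A.hist (quadV 0 0 0) ω k)⟫_ℝ = 0 ∧
      ⟪b i₁, A.next k ω (A.hist (quadV 0 0 0) ω k)⟫_ℝ = 0) :
    ∃ V : E d → ℝ, Admissible V ∧
      ∃ B : Set (E d), MeasurableSet B ∧ 1 / 10 < |(A.law V).real B - (gibbs V).real B| := by
  by_contra hcon
  push Not at hcon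
  have hn0 : ‖b i₀‖ = 1 := b.orthonormal.1 i₀
  have hn1 : ‖b i₁‖ = 1 := b.orthonormal.1 i₁
  have ho : ⟪b i₀, b i₁⟫_ℝ = 0 := b.orthonormal.2 h
  have hp := hcon (quadV (1 / 4) (b i₀) (b i₁))
    (quadV_admissible _ (by norm_num) _ _ hn0 hn1 ho) _ (boxSet_measurable (b i₀) (b i₁))
  have hm := hcon (quadV (-(1 / 4)) (b i₀) (b i₁))
    (quadV_admissible _ (by rw [abs_neg]; norm_num) _ _ hn0 hn1 ho) _
    (boxSet_measurable (b i₀) (b i₁))
  rw [law_eq A _ _ _ hq] at hp hm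
  have h1 := gibbs_plus b i₀ i₁ h
  have h2 := gibbs_minus b i₀ i₁ h
  have h3 := abs_le.mp hp
  have h4 := abs_le.mp hm
  norm_num at h1 h2
  linarith [h3.1, h3.2, h4.1, h4.2]

theorem exists_adapted_basis (S : Submodule ℝ (E d)) (hS : Module.finrank ℝ S + 2 ≤ d) :
    ∃ (b : OrthonormalBasis (Fin d) ℝ (E d)) (i₀ i₁ : Fin d), i₀ ≠ i₁ ∧
      ∀ x ∈ S, ⟪b i₀, x⟫_ℝ = 0 ∧ ⟪b i₁, x⟫_ℝ = 0 := by
  have hd : Module.finrank ℝ (E d) = d := finrank_euclideanSpace_fin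
  have hK : Module.finrank ℝ S + Module.finrank ℝ Sᗮ = d :=
    (Submodule.finrank_add_finrank_orthogonal S).trans hd
  have hn : 2 ≤ Module.finrank ℝ Sᗮ := by omega
  let bK := stdOrthonormalBasis ℝ Sᗮ
  let j₀ : Fin (Module.finrank ℝ Sᗮ) := ⟨0, by omega⟩
  let j₁ : Fin (Module.finrank ℝ Sᗮ) := ⟨1, by omega⟩
  have hj : j₀ ≠ j₁ := by simp [j₀, j₁, Fin.ext_iff]
  have hw1 : ‖(bK j₀ : E d)‖ = 1 := bK.orthonormal.1 j₀
  have hw2 : ‖(bK j₁ : E d)‖ = 1 := bK.orthonormal.1 j₁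
  have hw12 : ⟪(bK j₀ : E d), (bK j₁ : E d)⟫_ℝ = 0 := bK.orthonormal.2 hj
  have hw21 : ⟪(bK j₁ : E d), (bK j₀ : E d)⟫_ℝ = 0 := by
    rw [real_inner_comm]; exact hw12
  have hd2 : 2 ≤ d := by omega
  let i₀ : Fin d := ⟨0, by omega⟩
  let i₁ : Fin d := ⟨1, by omega⟩
  have hi : i₀ ≠ i₁ := by simp [i₀, i₁, Fin.ext_iff]
  let v : Fin d → E d := fun i => if i = i₀ then (bK j₀ : E d) else (bK j₁ : E d)
  have hv : Orthonormal ℝ (({i₀, i₁} : Set (Fin d)).domRestrict v) := by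
    rw [orthonormal_iff_ite]
    rintro ⟨i, hi'⟩ ⟨j, hj'⟩
    simp only [Set.mem_insert_iff, Set.mem_singleton_iff] at hi' hj'
    rcases hi' with rfl | rfl <;> rcases hj' with rfl | rfl
    · simp [v, Set.domRestrict, hw1]
    · simp [v, Set.domRestrict, hi, hi.symm, hw12]
    · simp [v, Set.domRestrict, hi.symm, hw21]
    · simp [v, Set.domRestrict, hi.symm, hw2]
  obtain ⟨b, hb⟩ := hv.exists_orthonormalBasis_extension_of_card_eq (by simp [hd])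
  refine ⟨b, i₀, i₁, hi, fun x hx => ?_⟩
  rw [hb i₀ (by simp), hb i₁ (by simp)]
  simp only [v, if_pos rfl, if_neg hi.symm]
  exact ⟨Submodule.inner_left_of_mem_orthogonal hx (bK j₀).2,
    Submodule.inner_left_of_mem_orthogonal hx (bK j₁).2⟩

theorem seed_tradeoff (d q N : ℕ) (hqN : q * N + 2 ≤ d) (A : Algorithm d q) (s : A.Ω → Fin N)
    (hs : ∀ (k : ℕ) (ω ω' : A.Ω) (h : Fin k → ℝ × E d),
      s ω = s ω' → A.next k ω h = A.next k ω' h) :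
    ∃ V : E d → ℝ, Admissible V ∧
      ∃ B : Set (E d), MeasurableSet B ∧ 1 / 10 < |(A.law V).real B - (gibbs V).real B| := by
  classical
  have hh : ∀ ω ω', s ω = s ω' → ∀ k, A.hist (quadV 0 0 0) ω k = A.hist (quadV 0 0 0) ω' k := by
    intro ω ω' e k
    induction k with
    | zero => rfl
    | succ k ih =>
      simp only [Algorithm.hist]
      rw [ih, hs k ω ω' _ e]
  obtain ⟨ω₀⟩ : Nonempty A.Ω := nonempty_of_isProbabilityMeasure A.P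
  let rep : Fin N → A.Ω := fun j => if h : ∃ ω, s ω = j then h.choose else ω₀
  have hrep : ∀ ω, s (rep (s ω)) = s ω := by
    intro ω
    have h : ∃ ω', s ω' = s ω := ⟨ω, rfl⟩
    simp only [rep, dif_pos h]
    exact h.choose_spec
  let pts : Fin N × Fin q → E d := fun p => A.next p.2 (rep p.1) (A.hist (quadV 0 0 0) (rep p.1) p.2)
  have hS : Module.finrank ℝ (Submodule.span ℝ (Set.range pts)) ≤ N * q := by
    have := finrank_range_le_card (R := ℝ) pts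
    simpa [Set.finrank] using this
  obtain ⟨b, i₀, i₁, hi, hb⟩ := exists_adapted_basis (Submodule.span ℝ (Set.range pts))
    (by rw [Nat.mul_comm] at hqN; omega)
  apply core A b i₀ i₁ hi
  intro ω k hk
  apply hb
  have : A.next k ω (A.hist (quadV 0 0 0) ω k) = pts (s ω, ⟨k, hk⟩) := by
    simp only [pts]
    rw [hh ω (rep (s ω)) (hrep ω).symm k, hs k ω (rep (s ω)) _ (hrep ω).symm]
  rw [this]
  exact Submodule.subset_span (Set.mem_range_self _)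

end Vale.Agent.Lib.P347
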