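import Vale.Agent.Lib.P347.Defs

namespace Vale.Agent.Lib.P347

open MeasureTheory RealInnerProductSpace InnerProductSpace

/-- `d`-dimensional Euclidean space. -/
abbrev E (d : ℕ) : Type := EuclideanSpace ℝ (Fin d)

variable {d : ℕ}

/-- the quadratic potential `3/4 ‖x‖² + c (⟪w₁,x⟫² + ⟪w₂,x⟫²)`. -/
noncomputable def quadV (c : ℝ) (w₁ w₂ : E d) (x : E d) : ℝ :=
  3 / 4 * ‖x‖ ^ 2 + c * (⟪w₁, x⟫_ℝ ^ 2 + ⟪w₂, x⟫_ℝ ^ 2)

/-- the gradient field of `quadV`. -/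
noncomputable def quadG (c : ℝ) (w₁ w₂ : E d) (x : E d) : E d :=
  (3 / 2 : ℝ) • x + (2 * c * ⟪w₁, x⟫_ℝ) • w₁ + (2 * c * ⟪w₂, x⟫_ℝ) • w₂

/-- the derivative of `quadV` as a linear map into the dual. -/
noncomputable def quadL (c : ℝ) (w₁ w₂ : E d) : E d →L[ℝ] (E d →L[ℝ] ℝ) :=
  LinearMap.toContinuousLinearMap
    { toFun := fun x => innerSL ℝ (quadG c w₁ w₂ x)
      map_add' := by
        intro x y
        ext v
        simp only [quadG, innerSL_apply_apply, inner_add_left, inner_smul_left, inner_add_right,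
          ContinuousLinearMap.add_apply, RCLike.conj_to_real]
        ring
      map_smul' := by
        intro r x
        ext v
        simp only [quadG, innerSL_apply_apply, inner_add_left, inner_smul_left, inner_smul_right,
          ContinuousLinearMap.smul_apply, RCLike.conj_to_real, RingHom.id_apply, smul_eq_mul]
        ring }

theorem quadL_apply (c : ℝ) (w₁ w₂ x v : E d) :
    quadL c w₁ w₂ x v = 3 / 2 * ⟪x, v⟫_ℝ + 2 * c * ⟪w₁, x⟫_ℝ * ⟪w₁, v⟫_ℝ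
      + 2 * c * ⟪w₂, x⟫_ℝ * ⟪w₂, v⟫_ℝ := by
  simp only [quadL, LinearMap.coe_toContinuousLinearMap', LinearMap.coe_mk, AddHom.coe_mk,
    innerSL_apply_apply, quadG, inner_add_left, inner_smul_left, RCLike.conj_to_real]

theorem quadV_hasFDerivAt (c : ℝ) (w₁ w₂ x : E d) :
    HasFDerivAt (quadV c w₁ w₂) (quadL c w₁ w₂ x) x := by
  have h0 : HasFDerivAt (fun y : E d => ‖y‖ ^ 2) (2 • innerSL ℝ x) x :=
    (hasStrictFDerivAt_norm_sq x).hasFDerivAt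
  have h1 : HasFDerivAt (fun y : E d => ⟪w₁, y⟫_ℝ) (innerSL ℝ w₁) x := (innerSL ℝ w₁).hasFDerivAt
  have h2 : HasFDerivAt (fun y : E d => ⟪w₂, y⟫_ℝ) (innerSL ℝ w₂) x := (innerSL ℝ w₂).hasFDerivAt
  have h := (h0.const_mul (3 / 4 : ℝ)).add (((h1.pow 2).add (h2.pow 2)).const_mul c)
  have e : quadL c w₁ w₂ x = (3 / 4 : ℝ) • (2 • innerSL ℝ x) +
      c • ((2 • ⟪w₁, x⟫_ℝ ^ (2 - 1)) • innerSL ℝ w₁ + (2 • ⟪w₂, x⟫_ℝ ^ (2 - 1)) • innerSL ℝ w₂) := by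
    ext v
    rw [quadL_apply]
    simp only [ContinuousLinearMap.add_apply, ContinuousLinearMap.smul_apply, innerSL_apply_apply,
      smul_eq_mul, nsmul_eq_mul]
    norm_num
    ring
  rw [e]
  exact h

theorem quadV_fderiv (c : ℝ) (w₁ w₂ : E d) :
    fderiv ℝ (quadV c w₁ w₂) = fun x => quadL c w₁ w₂ x :=
  funext fun x => (quadV_hasFDerivAt c w₁ w₂ x).fderiv

theorem quadV_gradient (c : ℝ) (w₁ w₂ x : E d) :
    gradient (quadV c w₁ w₂) x = quadG c w₁ w₂ x := by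
  apply HasGradientAt.gradient
  rw [hasGradientAt_iff_hasFDerivAt]
  have : (toDual ℝ (E d)) (quadG c w₁ w₂ x) = quadL c w₁ w₂ x := by
    ext v
    simp [quadL]
  rw [this]
  exact quadV_hasFDerivAt c w₁ w₂ x

theorem quadV_hess (c : ℝ) (w₁ w₂ x v : E d) :
    iteratedFDeriv ℝ 2 (quadV c w₁ w₂) x (fun _ => v) =
      3 / 2 * ‖v‖ ^ 2 + 2 * c * (⟪w₁, v⟫_ℝ ^ 2 + ⟪w₂, v⟫_ℝ ^ 2) := by
  rw [iteratedFDeriv_two_apply, quadV_fderiv]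
  have : fderiv ℝ (fun x => quadL c w₁ w₂ x) x = quadL c w₁ w₂ := (quadL c w₁ w₂).fderiv
  rw [this, quadL_apply, real_inner_self_eq_norm_sq]
  ring

theorem bessel_two (w₁ w₂ v : E d) (h₁ : ‖w₁‖ = 1) (h₂ : ‖w₂‖ = 1) (h₁₂ : ⟪w₁, w₂⟫_ℝ = 0) :
    ⟪w₁, v⟫_ℝ ^ 2 + ⟪w₂, v⟫_ℝ ^ 2 ≤ ‖v‖ ^ 2 := by
  set a := ⟪w₁, v⟫_ℝ with ha
  set b := ⟪w₂, v⟫_ℝ with hb
  have hva : ⟪v, w₁⟫_ℝ = a := real_inner_comm _ _
  have hvb : ⟪v, w₂⟫_ℝ = b := real_inner_comm _ _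
  have h₂₁ : ⟪w₂, w₁⟫_ℝ = 0 := by rw [real_inner_comm]; exact h₁₂
  have key : ⟪v - a • w₁ - b • w₂, v - a • w₁ - b • w₂⟫_ℝ = ‖v‖ ^ 2 - a ^ 2 - b ^ 2 := by
    simp only [inner_sub_left, inner_sub_right, inner_smul_left, inner_smul_right,
      real_inner_self_eq_norm_sq, h₁, h₂, h₁₂, h₂₁, hva, hvb, ← ha, ← hb, RCLike.conj_to_real]
    ring
  have := real_inner_self_nonneg (x := v - a • w₁ - b • w₂)
  linarith

theorem quadV_admissible (c : ℝ) (hc : |c| ≤ 1 / 4) (w₁ w₂ : E d)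
    (h₁ : ‖w₁‖ = 1) (h₂ : ‖w₂‖ = 1) (h₁₂ : ⟪w₁, w₂⟫_ℝ = 0) :
    Admissible (quadV c w₁ w₂) := by
  refine ⟨?_, ?_, ?_, ?_⟩
  · have a : ContDiff ℝ 2 (fun x : E d => ‖x‖ ^ 2) := contDiff_norm_sq ℝ
    have b1 : ContDiff ℝ 2 (fun x : E d => ⟪w₁, x⟫_ℝ) := (innerSL ℝ w₁).contDiff
    have b2 : ContDiff ℝ 2 (fun x : E d => ⟪w₂, x⟫_ℝ) := (innerSL ℝ w₂).contDiff
    exact (contDiff_const.mul a).add (contDiff_const.mul ((b1.pow 2).add (b2.pow 2)))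
  · simp [quadV]
  · rw [quadV_gradient]; simp [quadG]
  · intro x v
    rw [quadV_hess]
    have hb : ⟪w₁, v⟫_ℝ ^ 2 + ⟪w₂, v⟫_ℝ ^ 2 ≤ ‖v‖ ^ 2 := bessel_two w₁ w₂ v h₁ h₂ h₁₂
    have hn : 0 ≤ ⟪w₁, v⟫_ℝ ^ 2 + ⟪w₂, v⟫_ℝ ^ 2 := by positivity
    have hc' := abs_le.mp hc
    constructor <;> nlinarith [hc'.1, hc'.2]

end Vale.Agent.Lib.P347
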